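import Vale.Agent.P052.Config
import Vale.Agent.P052.ConfigHigh

/-!
Borsuk's conjecture fails in every dimension `d ≥ 63`.
-/

namespace Vale.Agent.Results.P052.AllFrom63

open Vale.Agent.P052

/-- For every `d ≥ 63` some bounded set of positive diameter in `ℝ^d` is not a union of fewer than
`d + 2` subsets of smaller diameter; so Borsuk's conjecture fails in every dimension `d ≥ 63`. -/
theorem result : ∀ d : ℕ, 63 ≤ d →
    (∃ Y : Set (EuclideanSpace ℝ (Fin d)), Bornology.IsBounded Y ∧ 0 < Metric.diam Y ∧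
      ∀ k : ℕ, IsUnionOfSmaller Y k → d + 2 ≤ k) ∧
    ¬ BorsukConjecture d := by
  intro d hd
  have h : ∃ Y : Set (EuclideanSpace ℝ (Fin d)), Bornology.IsBounded Y ∧ 0 < Metric.diam Y ∧
      ∀ k : ℕ, IsUnionOfSmaller Y k → d + 2 ≤ k := by
    rcases Nat.eq_or_lt_of_le hd with h63 | h64
    · subst h63
      obtain ⟨p, hle, hex, hw⟩ := exists_config
      refine ⟨Set.range p, (Set.finite_range p).isBounded, ?_, fun k hk => ?_⟩
      · rw [diam_range_eq p _ hle hex]
        exact Real.sqrt_pos.2 (by norm_num)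
      · have := card_le_of_isUnionOfSmaller p _ hle hw hk
        omega
    · exact (good_high d h64).exists_set
  refine ⟨h, fun hB => ?_⟩
  obtain ⟨Y, hb, hd', hk⟩ := h
  obtain ⟨k, hk1, hk2⟩ := hB Y hb hd'
  have := hk k hk2
  omega

end Vale.Agent.Results.P052.AllFrom63
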