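import Vale.Agent.P052.Config

/-!
Borsuk's conjecture fails in dimension 63.
-/

namespace Vale.Agent.Results.P052.Dim63

open Vale.Agent.P052

/-- Some bounded set of positive diameter in `ℝ^63` is not a union of fewer than 65 subsets of
smaller diameter; so Borsuk's conjecture fails in dimension 63. -/
theorem result : (∃ Y : Set (EuclideanSpace ℝ (Fin 63)),
      Bornology.IsBounded Y ∧ 0 < Metric.diam Y ∧ ∀ k : ℕ, IsUnionOfSmaller Y k → 65 ≤ k) ∧
    ¬ BorsukConjecture 63 := by
  have h : ∃ Y : Set (EuclideanSpace ℝ (Fin 63)),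
      Bornology.IsBounded Y ∧ 0 < Metric.diam Y ∧ ∀ k : ℕ, IsUnionOfSmaller Y k → 65 ≤ k := by
    obtain ⟨p, hle, hex, hw⟩ := exists_config
    refine ⟨Set.range p, (Set.finite_range p).isBounded, ?_, fun k hk => ?_⟩
    · rw [diam_range_eq p _ hle hex]
      exact Real.sqrt_pos.2 (by norm_num)
    · have := card_le_of_isUnionOfSmaller p _ hle hw hk
      omega
  refine ⟨h, fun hB => ?_⟩
  obtain ⟨Y, hb, hd, hk⟩ := h
  obtain ⟨k, hk1, hk2⟩ := hB Y hb hd
  have := hk k hk2
  omega

end Vale.Agent.Results.P052.Dim63
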